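import Mathlib

/-!
# Row 286 (S0533), LL sec. 9 (package L13), file Exp/HNum : DEFS-FREE LEAVES of the H table, TR5      (helper235; prefix `sk_eh_`)

MATHLIB ONLY.
* `sk_eh_norm_meas`, `sk_eh_norm_meas_size` : `∏ dv_s = w^l ∏ dv_s/w ≤ … w^{5-j} ∏ dv_s/w`   (09 l.296-300, l.405-409)
* `sk_eh_tilt`      : transfer of a bounded nonnegative test to a law with density `R`, `‖R‖_p ≤ C` (loss `1/p`)  (note H1)
* `sk_eh_dyad_int`, `sk_eh_dyad_int_v` : `∫ e ≲ k M Y²`, `∫ v e ≲ V M Y²` from the dyadic budgets `∫_{r}^{2r} e² ≤ M² Y⁴ / r`   (09 l.362-366)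
* `sk_eh_pow_theta` : `A ≤ x^α Z^k ⟹ A^θ ≤ x^{αθ} Z^k`.
-/

set_option autoImplicit false

namespace Claimed.Agent.R286

open MeasureTheory

theorem sk_eh_norm_meas {w : ℝ} (hw : 0 < w) (hw4 : w ≤ 4) {j l : ℕ} (h : 5 ≤ j + l) :
    w ^ (l : ℝ) ≤ 4 ^ ((j : ℝ) + l - 5) * w ^ ((5 : ℝ) - j) := by
  have h5 : (0 : ℝ) ≤ (j : ℝ) + l - 5 := by
    have : (5 : ℝ) ≤ (j : ℝ) + l := by exact_mod_cast h
    linarith
  have e1 : w ^ (l : ℝ) = w ^ ((j : ℝ) + l - 5) * w ^ ((5 : ℝ) - j) := by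
    rw [← Real.rpow_add hw]; congr 1; ring
  rw [e1]
  exact mul_le_mul_of_nonneg_right (Real.rpow_le_rpow hw.le hw4 h5) (Real.rpow_nonneg hw.le _)

theorem sk_eh_norm_meas_size {w lam : ℝ} (hw : 0 < w) (hw1 : w ≤ 1) (hwl : w ≤ lam) {j l : ℕ}
    (h : 6 ≤ j + l) : w ^ (l : ℝ) ≤ lam * w ^ ((5 : ℝ) - j) := by
  have h5 : (1 : ℝ) ≤ (j : ℝ) + l - 5 := by
    have : (6 : ℝ) ≤ (j : ℝ) + l := by exact_mod_cast h
    linarith
  have e1 : w ^ (l : ℝ) = w ^ ((j : ℝ) + l - 5) * w ^ ((5 : ℝ) - j) := by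
    rw [← Real.rpow_add hw]; congr 1; ring
  rw [e1]
  refine mul_le_mul_of_nonneg_right ?_ (Real.rpow_nonneg hw.le _)
  calc w ^ ((j : ℝ) + l - 5) ≤ w ^ (1 : ℝ) := Real.rpow_le_rpow_of_exponent_ge hw hw1 h5
    _ = w := Real.rpow_one w
    _ ≤ lam := hwl

theorem sk_eh_pow_theta {x Z A α k θ : ℝ} (hx : 0 < x) (hZ : 1 ≤ Z) (hA : 0 ≤ A) (hk : 0 ≤ k)
    (hθ0 : 0 ≤ θ) (hθ1 : θ ≤ 1) (h : A ≤ x ^ α * Z ^ k) : A ^ θ ≤ x ^ (α * θ) * Z ^ k := by
  have hZ0 : (0 : ℝ) < Z := by linarith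
  calc A ^ θ ≤ (x ^ α * Z ^ k) ^ θ := Real.rpow_le_rpow hA h hθ0
    _ = x ^ (α * θ) * Z ^ (k * θ) := by
        rw [Real.mul_rpow (Real.rpow_nonneg hx.le _) (Real.rpow_nonneg hZ0.le _),
          ← Real.rpow_mul hx.le, ← Real.rpow_mul hZ0.le]
    _ ≤ x ^ (α * θ) * Z ^ k := by
        refine mul_le_mul_of_nonneg_left ?_ (Real.rpow_nonneg hx.le _)
        refine Real.rpow_le_rpow_of_exponent_le hZ ?_
        nlinarith

theorem sk_eh_tilt {Ω : Type*} [MeasurableSpace Ω] (P : Measure Ω) [IsProbabilityMeasure P]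
    {R g : Ω → ℝ} {p p' B C : ℝ} (hpq : p.HolderConjugate p')
    (hR0 : ∀ ω, 0 ≤ R ω) (hRm : MemLp R (ENNReal.ofReal p) P)
    (hRC : ∫ ω, R ω ^ p ∂P ≤ C ^ p) (hC : 0 ≤ C)
    (hg0 : ∀ ω, 0 ≤ g ω) (hgB : ∀ ω, g ω ≤ B) (hgm : AEStronglyMeasurable g P) :
    ∫ ω, R ω * g ω ∂P ≤ C * B ^ (1 / p) * (∫ ω, g ω ∂P) ^ (1 / p') := by
  have hp0 : 0 < p := hpq.pos
  have hp'0 : 0 < p' := hpq.symm.pos
  have hp'1 : 1 < p' := hpq.symm.lt
  have hB0 : 0 ≤ B := by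
    obtain ⟨ω⟩ : Nonempty Ω := by
      by_contra hne
      rw [not_nonempty_iff] at hne
      have : P Set.univ = 0 := by
        rw [Set.univ_eq_empty_iff.mpr hne]; simp
      simp at this
    exact (hg0 ω).trans (hgB ω)
  have hgL : MemLp g (ENNReal.ofReal p') P :=
    MemLp.of_bound hgm B (Filter.Eventually.of_forall fun ω => by
      rw [Real.norm_eq_abs, abs_of_nonneg (hg0 ω)]; exact hgB ω)
  have hgi : Integrable g P := by
    have : MemLp g 1 P := MemLp.of_bound hgm B (Filter.Eventually.of_forall fun ω => by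
      rw [Real.norm_eq_abs, abs_of_nonneg (hg0 ω)]; exact hgB ω)
    exact memLp_one_iff_integrable.mp this
  have h1 := integral_mul_le_Lp_mul_Lq_of_nonneg hpq (Filter.Eventually.of_forall hR0)
    (Filter.Eventually.of_forall hg0) hRm hgL
  have hRint0 : 0 ≤ ∫ ω, R ω ^ p ∂P := integral_nonneg fun ω => Real.rpow_nonneg (hR0 ω) _
  have h2 : (∫ ω, R ω ^ p ∂P) ^ (1 / p) ≤ C := by
    calc (∫ ω, R ω ^ p ∂P) ^ (1 / p) ≤ (C ^ p) ^ (1 / p) :=
          Real.rpow_le_rpow hRint0 hRC (by positivity)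
      _ = C := by rw [← Real.rpow_mul hC, mul_one_div_cancel hp0.ne', Real.rpow_one]
  have hpt : ∀ ω, g ω ^ p' ≤ B ^ (p' - 1) * g ω := by
    intro ω
    rcases eq_or_lt_of_le (hg0 ω) with h0 | h0
    · rw [← h0, Real.zero_rpow hp'0.ne']; simp
    · have : g ω ^ p' = g ω ^ (p' - 1) * g ω := by
        conv_rhs => rw [← Real.rpow_one (g ω)]
        rw [Real.rpow_one, ← Real.rpow_add_one h0.ne']; congr 1; ring
      rw [this]
      exact mul_le_mul_of_nonneg_right (Real.rpow_le_rpow h0.le (hgB ω) (by linarith)) h0.le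
  have hgint0 : 0 ≤ ∫ ω, g ω ∂P := integral_nonneg hg0
  have h3 : ∫ ω, g ω ^ p' ∂P ≤ B ^ (p' - 1) * ∫ ω, g ω ∂P := by
    rw [← integral_const_mul]
    refine integral_mono_of_nonneg (Filter.Eventually.of_forall fun ω => Real.rpow_nonneg (hg0 ω) _)
      (hgi.const_mul _) (Filter.Eventually.of_forall hpt)
  have h4 : (∫ ω, g ω ^ p' ∂P) ^ (1 / p') ≤ B ^ (1 / p) * (∫ ω, g ω ∂P) ^ (1 / p') := by
    calc (∫ ω, g ω ^ p' ∂P) ^ (1 / p') ≤ (B ^ (p' - 1) * ∫ ω, g ω ∂P) ^ (1 / p') :=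
          Real.rpow_le_rpow (integral_nonneg fun ω => Real.rpow_nonneg (hg0 ω) _) h3 (by positivity)
      _ = B ^ (1 / p) * (∫ ω, g ω ∂P) ^ (1 / p') := by
          rw [Real.mul_rpow (Real.rpow_nonneg hB0 _) hgint0, ← Real.rpow_mul hB0]
          congr 2
          have := hpq.inv_add_inv_eq_one
          field_simp at this ⊢
          linarith
  calc ∫ ω, R ω * g ω ∂P ≤ (∫ ω, R ω ^ p ∂P) ^ (1 / p) * (∫ ω, g ω ^ p' ∂P) ^ (1 / p') := h1
    _ ≤ C * (B ^ (1 / p) * (∫ ω, g ω ∂P) ^ (1 / p')) :=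
        mul_le_mul h2 h4 (Real.rpow_nonneg (integral_nonneg fun ω => Real.rpow_nonneg (hg0 ω) _) _) hC
    _ = C * B ^ (1 / p) * (∫ ω, g ω ∂P) ^ (1 / p') := by ring

theorem sk_eh_dyad_ii {e : ℝ → ℝ} {r : ℝ} (hr : 0 < r)
    (he0 : ∀ v, 0 ≤ e v) (hem : IntervalIntegrable (fun v => e v ^ 2) volume r (2 * r))
    (hem1 : AEStronglyMeasurable e (volume.restrict (Set.Ioc r (2 * r)))) :
    IntervalIntegrable e volume r (2 * r) := by
  have hle : r ≤ 2 * r := by linarith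
  rw [intervalIntegrable_iff_integrableOn_Ioc_of_le hle] at hem ⊢
  have hdom : IntegrableOn (fun v => (e v ^ 2 + 1) / 2) (Set.Ioc r (2 * r)) volume := by
    refine Integrable.div_const (hem.add ?_) 2
    exact integrableOn_const (by simp) 
  refine Integrable.mono' hdom hem1 (Filter.Eventually.of_forall fun v => ?_)
  rw [Real.norm_eq_abs, abs_of_nonneg (he0 v)]
  nlinarith [sq_nonneg (e v - 1)]

theorem sk_eh_dyad_one {e : ℝ → ℝ} {r M Y : ℝ} (hr : 0 < r) (hM : 0 ≤ M) (_hY : 0 ≤ Y)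
    (he0 : ∀ v, 0 ≤ e v) (hem : IntervalIntegrable (fun v => e v ^ 2) volume r (2 * r))
    (hem1 : AEStronglyMeasurable e (volume.restrict (Set.Ioc r (2 * r))))
    (hb : ∫ v in r..(2 * r), e v ^ 2 ≤ M ^ 2 * Y ^ 4 / r) :
    ∫ v in r..(2 * r), e v ≤ M * Y ^ 2 := by
  have hle : r ≤ 2 * r := by linarith
  have hei := sk_eh_dyad_ii hr he0 hem hem1
  have key : ∀ c : ℝ, 0 < c → ∫ v in r..(2 * r), e v ≤ (M ^ 2 * Y ^ 4 / r) / (2 * c) + c * r / 2 := by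
    intro c hc
    have h1 : ∫ v in r..(2 * r), e v ≤ ∫ v in r..(2 * r), (e v ^ 2 / (2 * c) + c / 2) := by
      refine intervalIntegral.integral_mono_on hle hei
        ((hem.div_const _).add intervalIntegrable_const) fun v _ => ?_
      have : e v ^ 2 / (2 * c) + c / 2 - e v = (e v - c) ^ 2 / (2 * c) := by
        field_simp; ring
      have h2 : 0 ≤ (e v - c) ^ 2 / (2 * c) := by positivity
      linarith
    rw [intervalIntegral.integral_add (hem.div_const _) intervalIntegrable_const,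
      intervalIntegral.integral_div, intervalIntegral.integral_const] at h1
    have h3 : (∫ v in r..(2 * r), e v ^ 2) / (2 * c) ≤ (M ^ 2 * Y ^ 4 / r) / (2 * c) :=
      div_le_div_of_nonneg_right hb (by positivity)
    have h4 : (2 * r - r) • (c / 2) = c * r / 2 := by rw [smul_eq_mul]; ring
    rw [h4] at h1
    linarith
  rcases eq_or_lt_of_le (mul_nonneg hM (sq_nonneg Y)) with h0 | h0
  · -- degenerate
    have hz : M ^ 2 * Y ^ 4 = 0 := by
      have : M ^ 2 * Y ^ 4 = (M * Y ^ 2) ^ 2 := by ring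
      rw [this, ← h0]; ring
    rw [← h0]
    refine le_of_forall_pos_le_add fun ε hε => ?_
    have := key (2 * ε / r) (by positivity)
    rw [hz] at this
    have h5 : 2 * ε / r * r / 2 = ε := by field_simp
    rw [h5] at this
    simpa using this
  · have := key (M * Y ^ 2 / r) (by positivity)
    have h5 : (M ^ 2 * Y ^ 4 / r) / (2 * (M * Y ^ 2 / r)) + M * Y ^ 2 / r * r / 2 = M * Y ^ 2 := by
      have hMY : M * Y ^ 2 ≠ 0 := h0.ne'
      have hM' : M ≠ 0 := left_ne_zero_of_mul hMY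
      have hY' : Y ≠ 0 := by
        intro h; apply hMY; rw [h]; ring
      field_simp
      ring
    linarith

/-- `∫_Y^{2^k Y} e ≤ k M Y²` -/
theorem sk_eh_dyad_int {e : ℝ → ℝ} {M Y : ℝ} (k : ℕ) (hY : 0 < Y) (hM : 0 ≤ M)
    (he0 : ∀ v, 0 ≤ e v)
    (hem : ∀ i < k, IntervalIntegrable (fun v => e v ^ 2) volume (2 ^ i * Y) (2 * (2 ^ i * Y)))
    (hem1 : ∀ i < k, AEStronglyMeasurable e (volume.restrict (Set.Ioc (2 ^ i * Y) (2 * (2 ^ i * Y)))))
    (hb : ∀ i < k, ∫ v in (2 ^ i * Y)..(2 * (2 ^ i * Y)), e v ^ 2 ≤ M ^ 2 * Y ^ 4 / (2 ^ i * Y)) :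
    ∫ v in Y..(2 ^ k * Y), e v ≤ k * (M * Y ^ 2) := by
  have hstep : ∀ i : ℕ, (2:ℝ) ^ (i + 1) * Y = 2 * (2 ^ i * Y) := fun i => by ring
  have hii : ∀ i < k, IntervalIntegrable e volume ((2:ℝ) ^ i * Y) (2 ^ (i + 1) * Y) := by
    intro i hi
    rw [hstep]
    exact sk_eh_dyad_ii (by positivity) he0 (hem i hi) (hem1 i hi)
  have hsum := intervalIntegral.sum_integral_adjacent_intervals (f := e) (μ := volume)
    (a := fun i : ℕ => (2:ℝ) ^ i * Y) (n := k) hii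
  simp only [pow_zero, one_mul] at hsum
  rw [← hsum]
  calc ∑ i ∈ Finset.range k, ∫ v in ((2:ℝ) ^ i * Y)..(2 ^ (i + 1) * Y), e v
      ≤ ∑ _i ∈ Finset.range k, M * Y ^ 2 := by
        refine Finset.sum_le_sum fun i hi => ?_
        have hi' := Finset.mem_range.mp hi
        rw [hstep]
        exact sk_eh_dyad_one (by positivity) hM hY.le he0 (hem i hi') (hem1 i hi') (hb i hi')
    _ = k * (M * Y ^ 2) := by simp

/-- `∫_Y^{2^k Y} v e(v) dv ≤ 2 (2^k Y) M Y²` -/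
theorem sk_eh_dyad_int_v {e : ℝ → ℝ} {M Y : ℝ} (k : ℕ) (hY : 0 < Y) (hM : 0 ≤ M)
    (he0 : ∀ v, 0 ≤ e v)
    (hem : ∀ i < k, IntervalIntegrable (fun v => e v ^ 2) volume (2 ^ i * Y) (2 * (2 ^ i * Y)))
    (hem1 : ∀ i < k, AEStronglyMeasurable e (volume.restrict (Set.Ioc (2 ^ i * Y) (2 * (2 ^ i * Y)))))
    (hb : ∀ i < k, ∫ v in (2 ^ i * Y)..(2 * (2 ^ i * Y)), e v ^ 2 ≤ M ^ 2 * Y ^ 4 / (2 ^ i * Y)) :
    ∫ v in Y..(2 ^ k * Y), v * e v ≤ 2 * (2 ^ k * Y) * (M * Y ^ 2) := by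
  have hstep : ∀ i : ℕ, (2:ℝ) ^ (i + 1) * Y = 2 * (2 ^ i * Y) := fun i => by ring
  have hii0 : ∀ i < k, IntervalIntegrable e volume ((2:ℝ) ^ i * Y) (2 ^ (i + 1) * Y) := by
    intro i hi
    rw [hstep]
    exact sk_eh_dyad_ii (by positivity) he0 (hem i hi) (hem1 i hi)
  have hii : ∀ i < k, IntervalIntegrable (fun v => v * e v) volume ((2:ℝ) ^ i * Y) (2 ^ (i + 1) * Y) := by
    intro i hi
    exact (hii0 i hi).continuousOn_mul continuousOn_id
  have hsum := intervalIntegral.sum_integral_adjacent_intervals (f := fun v => v * e v) (μ := volume)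
    (a := fun i : ℕ => (2:ℝ) ^ i * Y) (n := k) hii
  simp only [pow_zero, one_mul] at hsum
  rw [← hsum]
  have hgeo : ∑ i ∈ Finset.range k, (2:ℝ) ^ i ≤ 2 ^ k := by
    have := geom_sum_eq (x := (2:ℝ)) (by norm_num) k
    rw [this]
    have : (0:ℝ) < 2 ^ k := by positivity
    rw [div_le_iff₀ (by norm_num)]
    linarith
  calc ∑ i ∈ Finset.range k, ∫ v in ((2:ℝ) ^ i * Y)..(2 ^ (i + 1) * Y), v * e v
      ≤ ∑ i ∈ Finset.range k, (2 * (2 ^ i * Y)) * (M * Y ^ 2) := by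
        refine Finset.sum_le_sum fun i hi => ?_
        have hi' := Finset.mem_range.mp hi
        have hpos : (0:ℝ) < 2 ^ i * Y := by positivity
        have h1 : ∫ v in ((2:ℝ) ^ i * Y)..(2 ^ (i + 1) * Y), v * e v
            ≤ ∫ v in ((2:ℝ) ^ i * Y)..(2 ^ (i + 1) * Y), (2 * (2 ^ i * Y)) * e v := by
          refine intervalIntegral.integral_mono_on (by rw [hstep]; linarith) (hii i hi')
            ((hii0 i hi').const_mul _) fun v hv => ?_
          refine mul_le_mul_of_nonneg_right ?_ (he0 v)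
          rw [← hstep]; exact hv.2
        rw [intervalIntegral.integral_const_mul] at h1
        refine h1.trans (mul_le_mul_of_nonneg_left ?_ (by positivity))
        rw [hstep]
        exact sk_eh_dyad_one hpos hM hY.le he0 (hem i hi') (hem1 i hi') (hb i hi')
    _ = 2 * ((∑ i ∈ Finset.range k, (2:ℝ) ^ i) * Y) * (M * Y ^ 2) := by
        rw [Finset.sum_mul, Finset.mul_sum, Finset.sum_mul]
    _ ≤ 2 * (2 ^ k * Y) * (M * Y ^ 2) := by
        have : 0 ≤ M * Y ^ 2 := by positivity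
        gcongr

end Claimed.Agent.R286
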